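import Vale.Agent.H91.MT.FinalAll
import Vale.Agent.H91.MT.NonVac

/-!
# Integer multiplication versus matrix transposition on multitape Turing machines

Three statements, proved together.

* The reduction (unconditional, all matrix sizes): for every multitape Turing machine `A` that
  multiplies there is a multitape Turing machine `B` that transposes square binary matrices
  with, for `2^(ν-1) < n ≤ 2^ν` and `ν ≥ 7`,
  `T_B(n) ≤ C 4^ν (log₂ ν + 2) + C ∑_{j ≤ log₂ ν} min (T_A(1024 * 4^ν), 4^ν (ν / 2^j + 1))`.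
* The conditional lower bound: if every transposing machine needs at least `c n^2 log n` steps
  on `n × n` matrices (for all large `n`), then every multiplying machine `A` satisfies the
  lower bound `c k log k` for the running maximum of `T_A`, for `T_A` at the lengths
  `1024 * 4^ν`, and for `T_A` at all large lengths when `T_A` is nondecreasing.
* Some machine multiplies, so neither statement is vacuous.
-/

namespace Vale.Agent.Results.P338.A_MultiplyVsTranspose

open Vale.Agent.H91.MT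

theorem result :
    (∀ A : Machine, Multiplies A → ∃ B : Machine, Transposes B ∧ ∃ C : ℕ, ∀ n ν : ℕ, 7 ≤ ν →
      2 ^ (ν - 1) < n → n ≤ 2 ^ ν →
      transTime B n ≤ C * 4 ^ ν * (Nat.log 2 ν + 2) +
        C * (∑ j ∈ Finset.range (Nat.log 2 ν + 1),
          min (mulTime A (1024 * 4 ^ ν)) (4 ^ ν * (ν / 2 ^ j + 1)))) ∧
    ((∀ B : Machine, Transposes B → ∃ c : ℝ, 0 < c ∧ ∃ N : ℕ, ∀ n : ℕ, N ≤ n →
        c * (n : ℝ) ^ 2 * Real.log n ≤ (transTime B n : ℝ)) →
      ∀ A : Machine, Multiplies A →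
        (∃ c : ℝ, 0 < c ∧ ∃ N : ℕ, ∀ k : ℕ, N ≤ k →
          c * (k : ℝ) * Real.log k ≤ (((Finset.range (k + 1)).sup (mulTime A) : ℕ) : ℝ)) ∧
        (∃ c : ℝ, 0 < c ∧ ∃ N : ℕ, ∀ ν : ℕ, N ≤ ν →
          c * ((1024 * 4 ^ ν : ℕ) : ℝ) * Real.log ((1024 * 4 ^ ν : ℕ) : ℝ) ≤
            (mulTime A (1024 * 4 ^ ν) : ℝ)) ∧
        (Monotone (mulTime A) → ∃ c : ℝ, 0 < c ∧ ∃ N : ℕ, ∀ k : ℕ, N ≤ k →
          c * (k : ℝ) * Real.log k ≤ (mulTime A k : ℝ))) ∧
    (∃ A : Machine, Multiplies A) :=
  ⟨fun A hA => reduction_all A hA,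
    fun H A hA => ⟨main_envelope H A hA, main_lengths H A hA, main_monotone H A hA⟩,
    exists_multiplier⟩

end Vale.Agent.Results.P338.A_MultiplyVsTranspose
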