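import Vale.Agent.H91.MT.FinalOne

/-!
# One transposing machine per multiplier: the reduction and the lower bound it transfers

For every multitape Turing machine `A` that multiplies there is ONE multitape Turing machine `B`
that transposes square binary matrices such that

* (the reduction) for `2^(ν-1) < n ≤ 2^ν` and `ν ≥ 7`,
  `T_B(n) ≤ C 4^ν (log₂ ν + 2) + C ∑_{j ≤ log₂ ν} min (T_A(1024 * 4^ν), 4^ν (ν / 2^j + 1))`;
* (the transfer) if this one machine `B` needs at least `c n^2 log n` steps on `n × n` matrices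
  for all large `n`, then `A` satisfies the lower bound `c k log k`: for the running maximum of
  `T_A`, for `T_A` at the lengths `1024 * 4^ν`, and for `T_A` at all large lengths when `T_A`
  is nondecreasing.

Moreover some machine multiplies. The hypothesis of the transfer is about the single machine `B`
built from `A`, not about all transposing machines; the statement with the hypothesis for all
transposing machines follows by applying it to `B`.
-/

namespace Vale.Agent.Results.P338.A_OneTransposerSuffices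

open Vale.Agent.H91.MT

theorem result :
    (∀ A : Machine, Multiplies A → ∃ B : Machine, Transposes B ∧
      (∃ C : ℕ, ∀ n ν : ℕ, 7 ≤ ν → 2 ^ (ν - 1) < n → n ≤ 2 ^ ν →
        transTime B n ≤ C * 4 ^ ν * (Nat.log 2 ν + 2) +
          C * (∑ j ∈ Finset.range (Nat.log 2 ν + 1),
            min (mulTime A (1024 * 4 ^ ν)) (4 ^ ν * (ν / 2 ^ j + 1)))) ∧
      ((∃ c : ℝ, 0 < c ∧ ∃ N : ℕ, ∀ n : ℕ, N ≤ n →
          c * (n : ℝ) ^ 2 * Real.log n ≤ (transTime B n : ℝ)) →
        (∃ c : ℝ, 0 < c ∧ ∃ N : ℕ, ∀ k : ℕ, N ≤ k →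
          c * (k : ℝ) * Real.log k ≤ (((Finset.range (k + 1)).sup (mulTime A) : ℕ) : ℝ)) ∧
        (∃ c : ℝ, 0 < c ∧ ∃ N : ℕ, ∀ ν : ℕ, N ≤ ν →
          c * ((1024 * 4 ^ ν : ℕ) : ℝ) * Real.log ((1024 * 4 ^ ν : ℕ) : ℝ) ≤
            (mulTime A (1024 * 4 ^ ν) : ℝ)) ∧
        (Monotone (mulTime A) → ∃ c : ℝ, 0 < c ∧ ∃ N : ℕ, ∀ k : ℕ, N ≤ k →
          c * (k : ℝ) * Real.log k ≤ (mulTime A k : ℝ)))) ∧
    (∃ A : Machine, Multiplies A) :=
  ⟨fun A hA => ⟨machAll A, machAll_transposes A hA, machAll_time A hA, fun hB =>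
      have hp := one_pointwise A hA hB
      ⟨one_envelope A hp, one_lengths A hp, fun hmono => one_monotone A hp hmono⟩⟩,
    exists_multiplier⟩

end Vale.Agent.Results.P338.A_OneTransposerSuffices
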