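import Vale.Agent.H91.MT.Final

/-!
# Integer multiplication is at least as hard as matrix transposition (multitape Turing machines)

If every multitape Turing machine that transposes `n × n` binary matrices needs at least
`c n^2 log n` steps (for a constant `c > 0` depending on the machine, and all large `n`), then
every multitape Turing machine `A` that multiplies `k`-bit integers satisfies the lower bound
`c k log k`:

* for the running maximum `max_{j ≤ k} T_A(j)`, for all large `k`;
* for `T_A(k)` itself at all large lengths of the form `k = 1024 * 4^ν`;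
* for `T_A(k)` itself at all large `k`, when `T_A` is nondecreasing.

The proof is a complete formalisation of a reduction in the style of Harvey and van der Hoeven:
from a multiplier `A` an explicit transposer `B` is built (as a Turing machine, compiled from
structured programs) which transposes a `2^ν × 2^ν` matrix through `O(log ν)` levels of
transpositions of arrays with wide entries, each level done by three integer multiplications of
length `1024 * 4^ν` performed by simulating `A` under a clock, with a classical fallback.
-/

namespace Vale.Agent.Results.P338.C_TransposeToMultiply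

open Vale.Agent.H91.MT

theorem result
    (H : ∀ B : Machine, Transposes B → ∃ c : ℝ, 0 < c ∧ ∃ N : ℕ, ∀ n : ℕ, N ≤ n →
      c * (n : ℝ) ^ 2 * Real.log n ≤ (transTime B n : ℝ))
    (A : Machine) (hA : Multiplies A) :
    (∃ c : ℝ, 0 < c ∧ ∃ N : ℕ, ∀ k : ℕ, N ≤ k →
      c * (k : ℝ) * Real.log k ≤ (((Finset.range (k + 1)).sup (mulTime A) : ℕ) : ℝ)) ∧
    (∃ c : ℝ, 0 < c ∧ ∃ N : ℕ, ∀ ν : ℕ, N ≤ ν →
      c * ((1024 * 4 ^ ν : ℕ) : ℝ) * Real.log ((1024 * 4 ^ ν : ℕ) : ℝ) ≤
        (mulTime A (1024 * 4 ^ ν) : ℝ)) ∧
    (Monotone (mulTime A) → ∃ c : ℝ, 0 < c ∧ ∃ N : ℕ, ∀ k : ℕ, N ≤ k →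
      c * (k : ℝ) * Real.log k ≤ (mulTime A k : ℝ)) :=
  ⟨main_envelope H A hA, main_lengths H A hA, main_monotone H A hA⟩

end Vale.Agent.Results.P338.C_TransposeToMultiply
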