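import Vale.Agent.H91.MT.Final

/-!
# The reduction from matrix transposition to integer multiplication, quantitatively

For every multitape Turing machine `A` that multiplies there is a multitape Turing machine `B`
that transposes square binary matrices and whose worst-case time on `2^ν × 2^ν` matrices is
bounded through the worst-case time of `A` at the single length `1024 * 4^ν`:

`T_B(2^ν) ≤ C 4^ν (log₂ ν + 2) + C ∑_{j ≤ log₂ ν} min (T_A(1024 * 4^ν), 4^ν (ν / 2^j + 1))`.

In particular `T_A(1024 * 4^ν) = o(4^ν ν)` along a sequence of `ν` would give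
`T_B(2^ν) = o(4^ν ν)` along that sequence.
-/

namespace Vale.Agent.Results.P338.D_TransposeViaMultiplier

open Vale.Agent.H91.MT

theorem result (A : Machine) (hA : Multiplies A) :
    ∃ B : Machine, Transposes B ∧ ∃ C : ℕ, ∀ ν : ℕ, 7 ≤ ν →
      transTime B (2 ^ ν) ≤ C * 4 ^ ν * (Nat.log 2 ν + 2) +
        C * ∑ j ∈ Finset.range (Nat.log 2 ν + 1),
          min (mulTime A (1024 * 4 ^ ν)) (4 ^ ν * (ν / 2 ^ j + 1)) :=
  reduction A hA

end Vale.Agent.Results.P338.D_TransposeViaMultiplier
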