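import Vale.Agent.H91.MT.PipeCorrect

/-!
# Transposing arrays of wide entries by three integer multiplications

The algebraic core of the reduction from matrix transposition to integer multiplication:
for `R` arrays of `r0 × c0` entries of `E` bits (padded to `P × P`, `P = 2^a`, `P ∣ E`,
`E ≥ 16`), the explicit pipeline `SwapParams.pipe` (five data-independent bit rearrangements
described by control lists, and three multiplications of `k`-bit integers by data-independent
kernels) outputs every array transposed.
-/

namespace Vale.Agent.Results.P338.E_SwapByThreeProducts

open Vale.Agent.H91.MT

theorem result (p : SwapParams) (hp : p.Ok) (f : ℕ → ℕ → ℕ → ℕ → Bool) :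
    p.pipe (p.dataIn f) = p.dataOut f :=
  SwapParams.pipe_correct p hp f

end Vale.Agent.Results.P338.E_SwapByThreeProducts
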